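import Vale.Agent.P228.Two.Holder

open Filter Topology Asymptotics
open scoped Manifold

namespace Vale.Agent.Results.P228.VariationHilbertSmith

theorem result {n p : ℕ} [Fact p.Prime] {M : Type*} [TopologicalSpace M] [T2Space M]
    [SecondCountableTopology M] [ConnectedSpace M] [ChartedSpace (Fin n → ℝ) M]
    [AddAction ℤ_[p] M] [ContinuousVAdd ℤ_[p] M]
    (h : (∀ (g : ℤ_[p]) (c : M), ∃ (S : ℕ → Set (Fin n → ℝ)) (s C r : ℕ → ℝ),
          (chartAt (Fin n → ℝ) c).target ∩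
            {u | g +ᵥ (chartAt (Fin n → ℝ) c).symm u ∈ (chartAt (Fin n → ℝ) c).source} ⊆ ⋃ j, S j ∧
          ∀ j, s j < n + 2 ∧ 0 < r j ∧
            ∀ (m : ℕ) (t : ℝ) (x y : Fin m → Fin n → ℝ), 0 < t → t < r j →
              (∀ i, x i ∈ S j ∧ y i ∈ S j ∧ ‖x i - y i‖ < t) →
              (∀ i i', i ≠ i' → t < ‖x i - x i'‖) →
              ∑ i, ‖chartAt (Fin n → ℝ) c (g +ᵥ (chartAt (Fin n → ℝ) c).symm (x i)) -
                  chartAt (Fin n → ℝ) c (g +ᵥ (chartAt (Fin n → ℝ) c).symm (y i))‖ ^ s j ≤ C j) ∨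
        (IsManifold 𝓘(ℝ, Fin n → ℝ) 1 M ∧ ∀ (g : ℤ_[p]) (x : M), ∃ α : ℝ, (n : ℝ) / (n + 2) < α ∧
          (fun y : M => chartAt (Fin n → ℝ) (g +ᵥ x) (g +ᵥ y) -
            chartAt (Fin n → ℝ) (g +ᵥ x) (g +ᵥ x)) =O[𝓝 x]
          fun y : M => ‖chartAt (Fin n → ℝ) x y - chartAt (Fin n → ℝ) x x‖ ^ α)) :
    (∃ k : ℕ, ∀ (g : ℤ_[p]) (x : M), ((p : ℤ_[p]) ^ k * g) +ᵥ x = x) ∧
      ¬ FaithfulVAdd ℤ_[p] M := by
  have hreg : Vale.Agent.P228.VarAction n p M := by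
    rcases h with h | ⟨hM, h⟩
    · intro g c
      obtain ⟨S, s, C, r, hcov, hv⟩ := h g c
      exact ⟨S, s, C, r, hcov, fun j => ⟨(hv j).1, (hv j).2.1,
        fun m t x y ht htr hP => (hv j).2.2 m t x y ht htr hP.1 hP.2⟩⟩
    · exact Vale.Agent.P228.varAction_of_holder h
  obtain ⟨k, hk⟩ := Vale.Agent.P228.factors_through_finite (n := n) hreg
  refine ⟨⟨k, hk⟩, fun h => ?_⟩
  have h0 : (p : ℤ_[p]) ^ k * 1 = 0 :=
    h.eq_of_vadd_eq_vadd fun x => by rw [hk 1 x, zero_vadd]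
  rw [mul_one] at h0
  exact (pow_ne_zero k (Nat.cast_ne_zero.mpr (Fact.out : p.Prime).ne_zero)) h0

end Vale.Agent.Results.P228.VariationHilbertSmith
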